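import Vale.Agent.P247.H574.Sta2

/-!
# P247, layer C, `VF3`: the distance bound
-/

open scoped ContDiff Topology
open Set MeasureTheory Filter Metric

noncomputable section

namespace Vale.Agent.P247.H558.VF

open Vale.Agent.P247.H74 Vale.Agent.P247.H574

/-- an injective linear map on a finite dimensional space is bounded below -/
lemma exists_bd {E F : Type*} [NormedAddCommGroup E] [NormedSpace ℝ E] [FiniteDimensional ℝ E]
    [NormedAddCommGroup F] [NormedSpace ℝ F] (L : E →L[ℝ] F) (h : Function.Injective L) :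
    ∃ c > 0, ∀ x, c * ‖x‖ ≤ ‖L x‖ := by
  obtain ⟨K, hK, hA⟩ := (LinearMap.injective_iff_antilipschitz (f := (L : E →ₗ[ℝ] F))).1 h
  refine ⟨(K : ℝ)⁻¹, by positivity, fun x => ?_⟩
  have := hA.le_mul_norm_sub (x := x) (y := 0)
  have hK' : (0 : ℝ) < K := by exact_mod_cast hK
  rw [inv_mul_le_iff₀ hK']
  simpa using this

/-- the linear map `(s, t) ↦ L s + t v` -/
def ext (L : ℂ →L[ℝ] R4) (v : R4) : ℂ × ℝ →L[ℝ] R4 :=
  L.comp (ContinuousLinearMap.fst ℝ ℂ ℝ) + (ContinuousLinearMap.snd ℝ ℂ ℝ).smulRight v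

lemma ext_apply (L : ℂ →L[ℝ] R4) (v : R4) (p : ℂ × ℝ) : ext L v p = L p.1 + p.2 • v := by
  simp [ext]

lemma ext_inj {L : ℂ →L[ℝ] R4} {v : R4} (hL : Function.Injective L) (hv : v ∉ range L) :
    Function.Injective (ext L v) := by
  rw [injective_iff_map_eq_zero]
  rintro ⟨s, t⟩ h
  rw [ext_apply] at h
  simp only at h
  have ht : t = 0 := by
    by_contra ht
    apply hv
    refine ⟨-(t⁻¹ • s), ?_⟩
    rw [map_neg, map_smul]
    have h2 : L s = -(t • v) := eq_neg_of_add_eq_zero_left h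
    rw [h2, smul_neg, neg_neg, smul_smul, inv_mul_cancel₀ ht, one_smul]
  subst ht
  rw [zero_smul, add_zero] at h
  have : s = 0 := hL (by rw [h, map_zero])
  rw [this]; rfl

/-- the local distance bound -/
lemma dist_loc {K : Set R4} {V : R4 → R4} (hV : Continuous V) {x₀ : R4} {u : ℂ → R4}
    (hu : ContDiffAt ℝ 1 u 0) (h0 : u 0 = x₀) (hinj : Function.Injective (fderiv ℝ u 0))
    (hVx : V x₀ ∉ range (fderiv ℝ u 0))
    (hcov : ∀ δ > 0, ∃ ε > 0, ∀ y ∈ ball x₀ ε, y ∈ K → ∃ z ∈ ball (0 : ℂ) δ, u z = y) :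
    ∃ ε > 0, ∃ c > 0, ∃ d₀ > 0, ∀ d, 0 < d → d ≤ d₀ → ∀ x ∈ ball x₀ ε, x ∈ K → ∀ y ∈ K,
      c * d ≤ dist (x + d • V x) y := by
  obtain ⟨c, hc, hcb⟩ := exists_bd _ (ext_inj hinj hVx)
  -- strict differentiability
  have hs : HasStrictFDerivAt u (fderiv ℝ u 0) 0 := hu.hasStrictFDerivAt one_ne_zero
  have h1 := hs.isLittleO.bound (show (0 : ℝ) < c / 4 by positivity)
  rw [Metric.eventually_nhds_iff_ball] at h1
  obtain ⟨δ, hδ, h1⟩ := h1
  obtain ⟨ε₁, hε₁, hc1⟩ := hcov δ hδ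
  -- continuity of V
  have h2 := Metric.continuousAt_iff.1 (hV.continuousAt (x := x₀)) (c / 4) (by positivity)
  obtain ⟨ε₂, hε₂, h2⟩ := h2
  set ε := min (ε₁ / 4) ε₂ with hε
  have hεp : 0 < ε := by positivity
  set B := ‖V x₀‖ + c / 4 with hB
  have hBp : 0 < B := by positivity
  refine ⟨ε, hεp, min (c / 2) 1, by positivity, min (ε₁ / (4 * B)) (ε₁ / 4), by positivity, ?_⟩
  intro d hd hd0 x hx hxK y hyK
  have hxε₁ : dist x x₀ < ε₁ / 4 := lt_of_lt_of_le (mem_ball.1 hx) (min_le_left _ _)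
  have hxε₂ : dist (V x) (V x₀) < c / 4 := h2 (lt_of_lt_of_le (mem_ball.1 hx) (min_le_right _ _))
  have hVB : ‖V x‖ ≤ B := by
    have : ‖V x‖ ≤ ‖V x₀‖ + ‖V x - V x₀‖ := by
      calc ‖V x‖ = ‖V x₀ + (V x - V x₀)‖ := by rw [add_sub_cancel]
        _ ≤ _ := norm_add_le _ _
    rw [dist_eq_norm] at hxε₂
    linarith
  by_cases hy : y ∈ ball x₀ ε₁
  · obtain ⟨s, hs1, rfl⟩ := hc1 x (mem_ball.2 (by linarith)) hxK
    obtain ⟨t, ht1, rfl⟩ := hc1 y hy hyK
    have h3 := h1 (s, t) (by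
      rw [mem_ball, Prod.dist_eq]
      exact max_lt (by simpa using hs1) (by simpa using ht1))
    simp only at h3
    have h4 := hcb (s - t, d)
    rw [ext_apply] at h4
    simp only at h4
    have h5 : c * d ≤ c * ‖((s - t, d) : ℂ × ℝ)‖ := by
      apply mul_le_mul_of_nonneg_left _ hc.le
      rw [Prod.norm_def]
      exact le_trans (le_abs_self d) (le_max_right _ _)
    have h6 : ‖s - t‖ ≤ ‖((s - t, d) : ℂ × ℝ)‖ := by
      rw [Prod.norm_def]; exact le_max_left _ _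
    rw [dist_eq_norm] at hxε₂ ⊢
    have h7 : fderiv ℝ u 0 (s - t) + d • V x₀ = (u s + d • V (u s) - u t)
        - (u s - u t - fderiv ℝ u 0 (s - t)) - d • (V (u s) - V x₀) := by
      rw [smul_sub]; abel
    have h8 : ‖fderiv ℝ u 0 (s - t) + d • V x₀‖ ≤ ‖u s + d • V (u s) - u t‖
        + c / 4 * ‖s - t‖ + d * (c / 4) := by
      rw [h7]
      refine (norm_sub_le _ _).trans (add_le_add ((norm_sub_le _ _).trans
        (add_le_add le_rfl h3)) ?_)
      rw [norm_smul, Real.norm_of_nonneg hd.le]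
      exact mul_le_mul_of_nonneg_left hxε₂.le hd.le
    have h9 : c / 4 * ‖s - t‖ ≤ c / 4 * ‖((s - t, d) : ℂ × ℝ)‖ :=
      mul_le_mul_of_nonneg_left h6 (by positivity)
    have h10 : min (c / 2) 1 * d ≤ c / 2 * d := mul_le_mul_of_nonneg_right (min_le_left _ _) hd.le
    nlinarith
  · rw [mem_ball, not_lt] at hy
    have e1 : ε₁ ≤ dist (x + d • V x) y + dist (x + d • V x) x₀ := by
      calc ε₁ ≤ dist y x₀ := hy
        _ ≤ dist y (x + d • V x) + dist (x + d • V x) x₀ := dist_triangle _ _ _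
        _ = _ := by rw [dist_comm y]
    have e2 : dist (x + d • V x) x₀ ≤ d * B + ε₁ / 4 := by
      rw [dist_eq_norm] at hxε₁ ⊢
      calc ‖x + d • V x - x₀‖ = ‖d • V x + (x - x₀)‖ := by congr 1; abel
        _ ≤ ‖d • V x‖ + ‖x - x₀‖ := norm_add_le _ _
        _ ≤ _ := by
          rw [norm_smul, Real.norm_of_nonneg hd.le]
          exact add_le_add (mul_le_mul_of_nonneg_left hVB hd.le) hxε₁.le
    have e3 : d * B ≤ ε₁ / 4 := by
      have := hd0.trans (min_le_left _ _)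
      rw [le_div_iff₀ (by positivity)] at this
      linarith
    have e4 : d ≤ ε₁ / 4 := hd0.trans (min_le_right _ _)
    have e5 : min (c / 2) 1 * d ≤ 1 * d := mul_le_mul_of_nonneg_right (min_le_right _ _) hd.le
    linarith

/-- `VF3`: the distance bound -/
theorem dist_bound {K O : Set R4} {V : R4 → R4} (hV : Continuous V)
    (hVp : ∀ (k : Fin 4 → ℤ) x, V (tr k x) = V x) (hO : IsClosed O) (hOK : O ⊆ K)
    (hOp : ∀ (k : Fin 4 → ℤ) x, x ∈ O → tr k x ∈ O)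
    (hKp : ∀ (k : Fin 4 → ℤ) x, x ∈ K → tr k x ∈ K)
    (hloc : ∀ x ∈ O, ∃ u : ℂ → R4, ContDiffAt ℝ 1 u 0 ∧ u 0 = x ∧
      Function.Injective (fderiv ℝ u 0) ∧ V x ∉ range (fderiv ℝ u 0) ∧
      ∀ δ > 0, ∃ ε > 0, ∀ y ∈ ball x ε, y ∈ K → ∃ z ∈ ball (0 : ℂ) δ, u z = y) :
    ∃ c > 0, ∃ d₀ > 0, ∀ d, 0 < d → d ≤ d₀ → ∀ x ∈ O, ∀ y ∈ K,
      c * d ≤ dist (x + d • V x) y := by
  have hcomp : IsCompact (Icc (0 : R4) 1 ∩ O) := isCompact_Icc.inter_right hO
  have key : ∃ c > 0, ∃ d₀ > 0, ∀ d, 0 < d → d ≤ d₀ → ∀ x ∈ Icc (0 : R4) 1 ∩ O, x ∈ K → ∀ y ∈ K,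
      c * d ≤ dist (x + d • V x) y := by
    refine hcomp.induction_on (p := fun S => ∃ c > 0, ∃ d₀ > 0, ∀ d, 0 < d → d ≤ d₀ →
      ∀ x ∈ S, x ∈ K → ∀ y ∈ K, c * d ≤ dist (x + d • V x) y) ?_ ?_ ?_ ?_
    · exact ⟨1, one_pos, 1, one_pos, fun d _ _ x hx => absurd hx (notMem_empty x)⟩
    · rintro s t hst ⟨c, hc, d₀, hd₀, h⟩
      exact ⟨c, hc, d₀, hd₀, fun d h1 h2 x hx => h d h1 h2 x (hst hx)⟩
    · rintro s t ⟨c, hc, d₀, hd₀, h⟩ ⟨c', hc', d₀', hd₀', h'⟩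
      refine ⟨min c c', by positivity, min d₀ d₀', by positivity, ?_⟩
      rintro d h1 h2 x (hx | hx) hxK y hy
      · exact (mul_le_mul_of_nonneg_right (min_le_left _ _) h1.le).trans
          (h d h1 (h2.trans (min_le_left _ _)) x hx hxK y hy)
      · exact (mul_le_mul_of_nonneg_right (min_le_right _ _) h1.le).trans
          (h' d h1 (h2.trans (min_le_right _ _)) x hx hxK y hy)
    · rintro x ⟨_, hx⟩
      obtain ⟨u, hu, h0, hinj, hVx, hcov⟩ := hloc x hx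
      obtain ⟨ε, hε, c, hc, d₀, hd₀, h⟩ := dist_loc hV hu h0 hinj hVx hcov
      exact ⟨ball x ε, mem_nhdsWithin_of_mem_nhds (ball_mem_nhds x hε), c, hc, d₀, hd₀, h⟩
  obtain ⟨c, hc, d₀, hd₀, h⟩ := key
  refine ⟨c, hc, d₀, hd₀, fun d h1 h2 x hx y hy => ?_⟩
  set k : Fin 4 → ℤ := fun i => -⌊x i⌋ with hk
  have hx' : tr k x ∈ Icc (0 : R4) 1 := by
    constructor
    · intro i
      simp only [tr, hk, Pi.zero_apply]
      push_cast
      have := Int.floor_le (x i)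
      linarith
    · intro i
      simp only [tr, hk, Pi.one_apply]
      push_cast
      have := Int.lt_floor_add_one (x i)
      linarith
  have := h d h1 h2 (tr k x) ⟨hx', hOp k x hx⟩ (hOK (hOp k x hx)) (tr k y) (hKp k y hy)
  rw [hVp] at this
  have e : dist (tr k x + d • V x) (tr k y) = dist (x + d • V x) y := by
    rw [dist_eq_norm, dist_eq_norm]
    congr 1
    funext i
    simp only [tr, Pi.add_apply, Pi.sub_apply, Pi.smul_apply, smul_eq_mul]
    ring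
  rwa [e] at this

end Vale.Agent.P247.H558.VF
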