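import Vale.Agent.P247.H574.Sta3
import Vale.Agent.P247.H558.VF.Inj

/-!
# P247, layer C: the structure at a regular point
-/

open scoped ContDiff Topology
open Set MeasureTheory Filter Metric

noncomputable section

namespace Vale.Agent.P247.H558.VF

open Vale.Agent.P247.H74 Vale.Agent.P247.H574

variable {D : Data} {K : Set R4} {x : R4} {N : ℕ} {v : Fin N → ℂ → R4} {ε : ℝ}

lemma Brs.cont (hB : Brs D K x N v ε) (l : Fin N) : ContinuousOn (v l) (ball 0 2) :=
  (hB.disc l).smooth.continuousOn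

/-- near `x` the set `K` is covered by arbitrarily small discs -/
theorem clean0 (hB : Brs D K x N v ε) {δ : ℝ} (hδ : 0 < δ) :
    ∃ ε' > 0, ∀ y ∈ ball x ε', y ∈ K → ∃ l, ∃ z ∈ ball (0 : ℂ) δ, v l z = y := by
  set S : Set R4 := ⋃ l, v l '' (closedBall 0 1 \ ball 0 δ) with hS
  have hSc : IsCompact S := by
    refine isCompact_iUnion fun l => ?_
    refine IsCompact.image_of_continuousOn ((isCompact_closedBall 0 1).diff isOpen_ball) ?_
    exact (Brs.cont hB l).mono (fun z hz => closedBall_subset_ball (by norm_num) hz.1)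
  have hx : x ∉ S := by
    intro hx
    obtain ⟨l, z, hz, hzx⟩ := mem_iUnion.1 hx
    have h1 := hB.inj l l z (closedBall_subset_ball (by norm_num) hz.1) 0 (by simp)
      (by rw [hzx, hB.zero])
    have h2 : z = 0 := by
      rcases h1 with h1 | h1
      · exact h1.2
      · exact h1.1
    exact hz.2 (by rw [h2]; exact mem_ball_self hδ)
  obtain ⟨ε₁, hε₁, hb⟩ := Metric.isOpen_iff.1 hSc.isClosed.isOpen_compl x hx
  refine ⟨min ε ε₁, lt_min hB.posε hε₁, fun y hy hyK => ?_⟩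
  obtain ⟨l, z, hz, hzy⟩ := hB.cov y (ball_subset_ball (min_le_left _ _) hy) hyK
  refine ⟨l, z, ?_, hzy⟩
  by_contra hcon
  exact hb (ball_subset_ball (min_le_right _ _) hy)
    (mem_iUnion.2 ⟨l, z, ⟨ball_subset_closedBall hz, hcon⟩, hzy⟩)

/-- near a point of the branch `v l`, different from `x`, the set `K` is this branch -/
theorem clean1 (hB : Brs D K x N v ε) {l : Fin N} {z₁ : ℂ} (h1 : z₁ ∈ ball (0 : ℂ) 1)
    (h0 : z₁ ≠ 0) (hx1 : v l z₁ ∈ ball x ε) {δ : ℝ} (hδ : 0 < δ) :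
    ∃ ε' > 0, ∀ y ∈ ball (v l z₁) ε', y ∈ K → ∃ z ∈ ball z₁ δ, v l z = y := by
  set S : Set R4 := (⋃ j : {j // j ≠ l}, v j '' (closedBall 0 1)) ∪
    v l '' (closedBall 0 1 \ ball z₁ δ) with hS
  have hSc : IsCompact S := by
    refine IsCompact.union (isCompact_iUnion fun j => ?_) ?_
    · refine IsCompact.image_of_continuousOn (isCompact_closedBall 0 1) ?_
      exact (Brs.cont hB j).mono (fun z hz => closedBall_subset_ball (by norm_num) hz)
    · refine IsCompact.image_of_continuousOn ((isCompact_closedBall 0 1).diff isOpen_ball) ?_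
      exact (Brs.cont hB l).mono (fun z hz => closedBall_subset_ball (by norm_num) hz.1)
  have hx : v l z₁ ∉ S := by
    rintro (hx | ⟨z, hz, hzx⟩)
    · obtain ⟨⟨j, hj⟩, z, hz, hzx⟩ := mem_iUnion.1 hx
      rcases hB.inj j l z (closedBall_subset_ball (by norm_num) hz) z₁
        (ball_subset_ball (by norm_num) h1) hzx with h2 | h2
      · exact hj h2.1
      · exact h0 h2.2
    · rcases hB.inj l l z (closedBall_subset_ball (by norm_num) hz.1) z₁
        (ball_subset_ball (by norm_num) h1) hzx with h2 | h2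
      · exact hz.2 (by rw [h2.2]; exact mem_ball_self hδ)
      · exact h0 h2.2
  obtain ⟨ε₁, hε₁, hb⟩ := Metric.isOpen_iff.1 hSc.isClosed.isOpen_compl _ hx
  obtain ⟨ε₂, hε₂, hb2⟩ := Metric.isOpen_iff.1 (isOpen_ball (x := x) (ε := ε)) _ hx1
  refine ⟨min ε₂ ε₁, lt_min hε₂ hε₁, fun y hy hyK => ?_⟩
  obtain ⟨j, z, hz, hzy⟩ := hB.cov y (hb2 (ball_subset_ball (min_le_left _ _) hy)) hyK
  have hyS : y ∉ S := hb (ball_subset_ball (min_le_right _ _) hy)
  have hjl : j = l := by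
    by_contra hj
    exact hyS (Or.inl (mem_iUnion.2 ⟨⟨j, hj⟩, z, ball_subset_closedBall hz, hzy⟩))
  subst hjl
  refine ⟨z, ?_, hzy⟩
  by_contra hcon
  exact hyS (Or.inr ⟨z, ⟨ball_subset_closedBall hz, hcon⟩, hzy⟩)

/-- a local left inverse of an immersion -/
theorem exists_left {g : ℂ → R4} {z₀ : ℂ} (hg : ContDiffAt ℝ 1 g z₀)
    (hinj : Function.Injective (fderiv ℝ g z₀)) :
    ∃ P : R4 → ℂ, ContDiffAt ℝ 1 P (g z₀) ∧ ∃ δ > 0, ∀ w ∈ ball z₀ δ, P (g w) = w := by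
  have hd : HasFDerivAt g (fderiv ℝ g z₀) z₀ := (hg.differentiableAt one_ne_zero).hasFDerivAt
  obtain ⟨S, hS⟩ := (fderiv ℝ g z₀).toLinearMap.exists_leftInverse_of_injective
    (LinearMap.ker_eq_bot.2 hinj)
  set S' : R4 →L[ℝ] ℂ := LinearMap.toContinuousLinearMap S with hS'
  have hST : ∀ v, S' (fderiv ℝ g z₀ v) = v := fun v => LinearMap.congr_fun hS v
  set f : ℂ → ℂ := fun v => S' (g v) with hf
  have hfs : ContDiffAt ℝ 1 f z₀ := S'.contDiff.contDiffAt.comp _ hg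
  have hfd : HasFDerivAt f ((ContinuousLinearEquiv.refl ℝ ℂ : ℂ ≃L[ℝ] ℂ) : ℂ →L[ℝ] ℂ) z₀ := by
    have h1 := S'.hasFDerivAt.comp z₀ hd
    have h2 : S'.comp (fderiv ℝ g z₀) =
        ((ContinuousLinearEquiv.refl ℝ ℂ : ℂ ≃L[ℝ] ℂ) : ℂ →L[ℝ] ℂ) :=
      ContinuousLinearMap.ext fun v => hST v
    rw [h2] at h1
    exact h1
  have hst : HasStrictFDerivAt f
      ((ContinuousLinearEquiv.refl ℝ ℂ : ℂ ≃L[ℝ] ℂ) : ℂ →L[ℝ] ℂ) z₀ :=
    hfs.hasStrictFDerivAt' hfd one_ne_zero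
  set Q : ℂ → ℂ := hfs.localInverse hfd one_ne_zero with hQ
  have hQs : ContDiffAt ℝ 1 Q (f z₀) := hfs.to_localInverse hfd one_ne_zero
  have h1 : ∀ᶠ w in 𝓝 z₀, Q (f w) = w := hst.eventually_left_inverse
  obtain ⟨δ, hδ, h4⟩ := Metric.eventually_nhds_iff_ball.1 h1
  refine ⟨fun x => Q (S' x), ?_, δ, hδ, fun w hw => h4 w hw⟩
  exact ContDiffAt.comp (g z₀) hQs S'.contDiff.contDiffAt

/-- the derivative of a `J`-holomorphic map is complex linear -/
lemma fderiv_smul {u : ℂ → R4} {z : ℂ}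
    (h : fderiv ℝ u z Complex.I = D.J (u z) (fderiv ℝ u z 1)) (c : ℂ) :
    fderiv ℝ u z c = c.re • fderiv ℝ u z 1 + c.im • D.J (u z) (fderiv ℝ u z 1) := by
  have : c = c.re • (1 : ℂ) + c.im • Complex.I := by
    apply Complex.ext <;> simp
  conv_lhs => rw [this]
  rw [map_add, map_smul, map_smul, h]

lemma J_fderiv {u : ℂ → R4} {z : ℂ}
    (h : fderiv ℝ u z Complex.I = D.J (u z) (fderiv ℝ u z 1)) (c : ℂ) :
    fderiv ℝ u z (Complex.I * c) = D.J (u z) (fderiv ℝ u z c) := by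
  rw [fderiv_smul h (Complex.I * c), fderiv_smul h c, map_add, map_smul, map_smul, D.J_sq]
  simp only [Complex.mul_re, Complex.I_re, zero_mul, Complex.I_im, one_mul, zero_sub,
    Complex.mul_im, zero_add, add_zero, neg_smul, smul_neg]
  abel

lemma fderiv_inj {u : ℂ → R4} {z : ℂ}
    (h : fderiv ℝ u z Complex.I = D.J (u z) (fderiv ℝ u z 1)) (h0 : fderiv ℝ u z 1 ≠ 0) :
    Function.Injective (fderiv ℝ u z) := by
  rw [injective_iff_map_eq_zero]
  intro c hc
  by_contra hcon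
  have h1 : fderiv ℝ u z ((starRingEnd ℂ) c * c) = 0 := by
    have h2 : fderiv ℝ u z (Complex.I * c) = 0 := by rw [J_fderiv h, hc, map_zero]
    have : (starRingEnd ℂ) c * c = c.re • c - c.im • (Complex.I * c) := by
      apply Complex.ext <;> simp <;> ring
    rw [this, map_sub, map_smul, map_smul, hc, h2, smul_zero, smul_zero, sub_zero]
  rw [mul_comm, Complex.mul_conj] at h1
  have h3 : ((Complex.normSq c : ℝ) : ℂ) = Complex.normSq c • (1 : ℂ) := by
    rw [Complex.real_smul, mul_one]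
  rw [h3, map_smul] at h1
  rcases smul_eq_zero.1 h1 with h4 | h4
  · exact hcon (Complex.normSq_eq_zero.1 h4)
  · exact h0 h4

/-- reparametrisation: if `u` near `w₁` runs in the image of arbitrarily small discs of `v`
around `z₁`, then `v = u ∘ g` near `z₁` with `g` holomorphic -/
theorem reparam {u v : ℂ → R4} {w₁ z₁ : ℂ} (hu : ContDiffAt ℝ 1 u w₁) (hv : ContDiffAt ℝ 1 v z₁)
    (hJu : fderiv ℝ u w₁ Complex.I = D.J (u w₁) (fderiv ℝ u w₁ 1))
    (hJv : fderiv ℝ v z₁ Complex.I = D.J (v z₁) (fderiv ℝ v z₁ 1))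
    (hu0 : fderiv ℝ u w₁ 1 ≠ 0) (hv0 : fderiv ℝ v z₁ 1 ≠ 0) (h : u w₁ = v z₁)
    (hcov : ∀ δ > 0, ∀ᶠ w in 𝓝 w₁, ∃ z ∈ ball z₁ δ, v z = u w) :
    ∃ g : ℂ → ℂ, DifferentiableAt ℂ g z₁ ∧ g z₁ = w₁ ∧ ∀ᶠ z in 𝓝 z₁, u (g z) = v z := by
  have hinj := fderiv_inj hJv hv0
  obtain ⟨P, hP, δ, hδ, hPv⟩ := exists_left hv hinj
  set ζ : ℂ → ℂ := fun w => P (u w) with hζ
  have hζ1 : ContDiffAt ℝ 1 ζ w₁ := by
    refine ContDiffAt.comp w₁ ?_ hu
    rw [h]; exact hP
  have hζw : ζ w₁ = z₁ := by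
    simp only [hζ]
    rw [h, hPv z₁ (mem_ball_self hδ)]
  have hvζ : ∀ᶠ w in 𝓝 w₁, v (ζ w) = u w := by
    filter_upwards [hcov δ hδ] with w hw
    obtain ⟨z, hz, hzw⟩ := hw
    simp only [hζ]
    rw [← hzw, hPv z hz]
  set L := fderiv ℝ ζ w₁ with hL
  have hs : HasStrictFDerivAt ζ L w₁ := hζ1.hasStrictFDerivAt one_ne_zero
  have hchain : (fderiv ℝ v z₁).comp L = fderiv ℝ u w₁ := by
    have h1 : HasFDerivAt (fun w => v (ζ w)) ((fderiv ℝ v z₁).comp L) w₁ := by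
      have h2 : HasFDerivAt v (fderiv ℝ v z₁) (ζ w₁) := by
        rw [hζw]; exact (hv.differentiableAt one_ne_zero).hasFDerivAt
      exact h2.comp w₁ hs.hasFDerivAt
    have h3 : HasFDerivAt u ((fderiv ℝ v z₁).comp L) w₁ :=
      h1.congr_of_eventuallyEq (hvζ.mono fun w hw => hw.symm)
    exact h3.fderiv.symm
  have hLI : L Complex.I = Complex.I * L 1 := by
    apply hinj
    rw [J_fderiv hJv]
    have h1 : fderiv ℝ v z₁ (L Complex.I) = fderiv ℝ u w₁ Complex.I := by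
      rw [← hchain]; rfl
    have h2 : fderiv ℝ v z₁ (L 1) = fderiv ℝ u w₁ 1 := by
      rw [← hchain]; rfl
    rw [h1, h2, hJu, h]
  have hL1 : L 1 ≠ 0 := by
    intro h0
    apply hu0
    rw [← hchain]
    show fderiv ℝ v z₁ (L 1) = 0
    rw [h0, map_zero]
  have hLc : ∀ c : ℂ, L c = c * L 1 := by
    intro c
    have : c = c.re • (1 : ℂ) + c.im • Complex.I := by
      apply Complex.ext <;> simp
    conv_lhs => rw [this]
    rw [map_add, map_smul, map_smul, hLI, Complex.real_smul, Complex.real_smul]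
    conv_rhs => rw [← Complex.re_add_im c]
    ring
  have hsd : HasStrictDerivAt ζ (L 1) w₁ := by
    rw [hasStrictDerivAt_iff_hasStrictFDerivAt]
    refine HasStrictFDerivAt.of_isLittleO ?_
    refine hs.isLittleO.congr_left fun p => ?_
    rw [hLc]
    simp
  set g := hsd.localInverse ζ (L 1) w₁ hL1 with hg
  have hg1 : HasStrictDerivAt g (L 1)⁻¹ z₁ := by
    have := hsd.to_localInverse hL1
    rwa [hζw] at this
  have hgz : g z₁ = w₁ := by
    have := (hsd.hasStrictFDerivAt_equiv hL1).localInverse_apply_image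
    rw [hζw] at this
    exact this
  have hζg : ∀ᶠ z in 𝓝 z₁, ζ (g z) = z := by
    have := (hsd.hasStrictFDerivAt_equiv hL1).eventually_right_inverse
    rw [hζw] at this
    exact this
  refine ⟨g, hg1.hasDerivAt.differentiableAt, hgz, ?_⟩
  have hgt : Tendsto g (𝓝 z₁) (𝓝 w₁) := by
    have := hg1.hasDerivAt.continuousAt
    unfold ContinuousAt at this
    rwa [hgz] at this
  filter_upwards [hζg, hgt.eventually hvζ] with z h1 h2
  rw [← h2, h1]

end Vale.Agent.P247.H558.VF
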