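import Vale.Agent.P247.H558.VF.Dist
import Vale.Agent.P247.H558.VF.Reg
import Vale.Agent.P247.H74.CE.OmL

/-!
# P247, layer C: the set `Out`, and the distance bound for `VF`
-/

open scoped ContDiff Topology
open Set MeasureTheory Filter Metric

noncomputable section

namespace Vale.Agent.P247.H558.VF

open Vale.Agent.P247.H74 Vale.Agent.P247.H574

variable {D : Data} {K : Set R4} {P : Finset R4} {N : R4 → ℕ} {u : ∀ p, Fin (N p) → ℂ → R4}
  {ε : R4 → ℝ} {ρ : ℝ}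

lemma tr_tr (k l : Fin 4 → ℤ) (x : R4) : tr k (tr l x) = tr (k + l) x := by
  funext i; simp only [tr, Pi.add_apply]; push_cast; ring

lemma tr_zero (x : R4) : tr 0 x = x := by
  funext i; simp [tr]

lemma dist_tr (k : Fin 4 → ℤ) (x y : R4) : dist (tr k x) (tr k y) = dist x y := by
  rw [dist_eq_norm, dist_eq_norm]
  congr 1
  funext i
  simp [tr]

lemma out_inv (hKp : ∀ (k : Fin 4 → ℤ) x, x ∈ K → tr k x ∈ K) (k : Fin 4 → ℤ) (x : R4)
    (hx : x ∈ Out K P N u ρ) : tr k x ∈ Out K P N u ρ := by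
  refine ⟨hKp k x hx.1, fun p hp l z hz k' h => hx.2 p hp l z hz (-k + k') ?_⟩
  rw [← tr_tr, ← h, tr_tr, neg_add_cancel, tr_zero]

/-- for small radii the set `Out` is closed -/
theorem out_closed (hK : IsClosed K) (hKp : ∀ (k : Fin 4 → ℤ) x, x ∈ K → tr k x ∈ K)
    (hB : ∀ p ∈ P, Brs D K p (N p) (u p) (ε p)) :
    ∀ᶠ ρ in 𝓝[>] (0 : ℝ), IsClosed (Out K P N u ρ) := by
  have hsmall : ∀ᶠ ρ in 𝓝[>] (0 : ℝ), ∀ p ∈ P, ∀ l, ∀ z ∈ ball (0 : ℂ) ρ,
      u p l z ∈ ball p (ε p) := by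
    rw [Finset.eventually_all]
    intro p hp
    rw [eventually_all]
    intro l
    have hc : ContinuousAt (u p l) 0 :=
      (Brs.cont (hB p hp) l).continuousAt (ball_mem_nhds _ (by norm_num))
    obtain ⟨δ, hδ, h⟩ := Metric.continuousAt_iff.1 hc (ε p) (hB p hp).posε
    rw [(hB p hp).zero l] at h
    filter_upwards [Ioo_mem_nhdsGT hδ] with ρ hρ z hz
    exact h (lt_trans (mem_ball.1 hz) hρ.2)
  filter_upwards [hsmall, Ioo_mem_nhdsGT (show (0 : ℝ) < 1 by norm_num)] with ρ h1 h2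
  rw [← isOpen_compl_iff, Metric.isOpen_iff]
  intro x hx
  by_cases hxK : x ∈ K
  · have : ∃ p ∈ P, ∃ l, ∃ z ∈ ball (0 : ℂ) ρ, ∃ k : Fin 4 → ℤ, x = tr k (u p l z) := by
      by_contra hcon
      push Not at hcon
      exact hx ⟨hxK, hcon⟩
    obtain ⟨p, hp, l, z, hz, k, rfl⟩ := this
    -- near `u p l z` the set `K` is covered by the discs of radius `ρ`
    have key : ∃ ε' > 0, ∀ y ∈ ball (u p l z) ε', y ∈ K → ∃ l', ∃ z' ∈ ball (0 : ℂ) ρ,
        u p l' z' = y := by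
      by_cases hz0 : z = 0
      · subst hz0
        rw [(hB p hp).zero l]
        exact clean0 (hB p hp) h2.1
      · have hδ : 0 < ρ - ‖z‖ := by rw [mem_ball_zero_iff] at hz; linarith
        obtain ⟨ε', hε', hc⟩ := clean1 (hB p hp) (l := l)
          (ball_subset_ball h2.2.le hz) hz0 (h1 p hp l z hz) hδ
        refine ⟨ε', hε', fun y hy hyK => ?_⟩
        obtain ⟨z', hz', h3⟩ := hc y hy hyK
        refine ⟨l, z', ?_, h3⟩
        rw [mem_ball_zero_iff]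
        rw [mem_ball, dist_eq_norm] at hz'
        calc ‖z'‖ = ‖z + (z' - z)‖ := by rw [add_sub_cancel]
          _ ≤ ‖z‖ + ‖z' - z‖ := norm_add_le _ _
          _ < ρ := by linarith
    obtain ⟨ε', hε', hc⟩ := key
    refine ⟨ε', hε', fun y hy hyO => ?_⟩
    have h3 : tr (-k) y ∈ ball (u p l z) ε' := by
      rw [mem_ball] at hy ⊢
      rw [← dist_tr (-k)] at hy
      rwa [tr_tr, neg_add_cancel, tr_zero] at hy
    obtain ⟨l', z', hz', h4⟩ := hc _ h3 (hKp _ _ hyO.1)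
    refine hyO.2 p hp l' z' hz' k ?_
    rw [h4, tr_tr, add_neg_cancel, tr_zero]
  · obtain ⟨ε', hε', h⟩ := Metric.isOpen_iff.1 hK.isOpen_compl x hxK
    exact ⟨ε', hε', fun y hy hyO => h hy hyO.1⟩

/-- a vector `V` with `Om (u' 1) V ≠ 0` is not tangent -/
lemma not_tangent {w : ℂ → R4} {z : ℂ} {V : R4}
    (hJ : fderiv ℝ w z Complex.I = D.J (w z) (fderiv ℝ w z 1))
    (h : Om D (w z) (fderiv ℝ w z 1) V ≠ 0) : V ∉ range (fderiv ℝ w z) := by
  rintro ⟨c, rfl⟩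
  apply h
  have : fderiv ℝ w z c = cm D (w z) c (fderiv ℝ w z 1) := fderiv_smul hJ c
  rw [this, CE.Om_cm, CE.Om_self, mul_zero]

/-- the distance bound for `VF` -/
theorem vf_dist {V : R4 → R4} (hV : Continuous V) (hVp : ∀ (k : Fin 4 → ℤ) x, V (tr k x) = V x)
    (hKp : ∀ (k : Fin 4 → ℤ) x, x ∈ K → tr k x ∈ K) (hO : IsClosed (Out K P N u ρ))
    (hloc : ∀ x ∈ Out K P N u ρ, ∃ w : ℂ → R4, ContDiffAt ℝ 1 w 0 ∧ w 0 = x ∧
      fderiv ℝ w 0 1 ≠ 0 ∧ fderiv ℝ w 0 Complex.I = D.J (w 0) (fderiv ℝ w 0 1) ∧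
      Om D x (fderiv ℝ w 0 1) (V x) ≠ 0 ∧
      ∀ δ > 0, ∃ ε > 0, ∀ y ∈ ball x ε, y ∈ K → ∃ z ∈ ball (0 : ℂ) δ, w z = y) :
    ∃ c > 0, ∃ d₀ > 0, ∀ d, 0 < d → d ≤ d₀ → ∀ x ∈ Out K P N u ρ, ∀ y ∈ K,
      c * d ≤ dist (x + d • V x) y := by
  refine dist_bound hV hVp hO (fun x hx => hx.1) (out_inv hKp) hKp fun x hx => ?_
  obtain ⟨w, h1, h2, h3, h4, h5, h6⟩ := hloc x hx
  refine ⟨w, h1, h2, fderiv_inj h4 h3, ?_, h6⟩
  apply not_tangent h4
  rw [h2]; exact h5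

end Vale.Agent.P247.H558.VF
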